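import Mathlib
import Vale.Agent.Lib.Helper5.SymSign

namespace Vale.Agent.Results.P160.PairBonferroni

open Vale.Agent.Lib.Helper5.SymSign

/-- There are exactly `2 ^ (n (n + 1) / 2)` symmetric `n × n` sign matrices, and at least
`(n (n - 1) / 2 ^ n - n ^ 4 / 4 ^ n) * 2 ^ (n (n + 1) / 2)` of them are singular. Hence the
singularity probability satisfies `q_n ≥ n (n - 1) / 2 ^ n - n ^ 4 / 4 ^ n` for every `n`. -/
theorem result (n : ℕ) :
    Set.ncard {A : Matrix (Fin n) (Fin n) ℤ | A.IsSymm ∧ ∀ i j, A i j = 1 ∨ A i j = -1}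
        = 2 ^ (n * (n + 1) / 2) ∧
    ((n : ℝ) * (n - 1) / 2 ^ n - (n : ℝ) ^ 4 / 4 ^ n) * 2 ^ (n * (n + 1) / 2) ≤
      (Set.ncard {A : Matrix (Fin n) (Fin n) ℤ |
        A.IsSymm ∧ (∀ i j, A i j = 1 ∨ A i j = -1) ∧ A.det = 0} : ℝ) := by
  have hrange : {A : Matrix (Fin n) (Fin n) ℤ | A.IsSymm ∧ ∀ i j, A i j = 1 ∨ A i j = -1}
      = Set.range (toMat (n := n)) := by
    ext A
    constructor
    · rintro ⟨hs, h⟩
      exact exists_toMat A hs h
    · rintro ⟨f, rfl⟩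
      exact ⟨toMat_isSymm f, toMat_sign f⟩
  have hT : n * (n + 1) / 2 = (n + 1).choose 2 := by
    rw [Nat.choose_two_right, Nat.add_sub_cancel, Nat.mul_comm]
  refine ⟨?_, ?_⟩
  · rw [hrange, ← Set.image_univ, Set.ncard_image_of_injective _ toMat_injective, Set.ncard_univ,
      Nat.card_eq_fintype_card, Fintype.card_fun, Fintype.card_bool, Sym2.card, Fintype.card_fin,
      hT]
  · have hfin : {A : Matrix (Fin n) (Fin n) ℤ |
        A.IsSymm ∧ (∀ i j, A i j = 1 ∨ A i j = -1) ∧ A.det = 0}.Finite := by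
      refine (Set.finite_range (toMat (n := n))).subset ?_
      intro A hA
      rw [← hrange]
      exact ⟨hA.1, hA.2.1⟩
    have hsub : toMat '' (bad n : Set (Sym2 (Fin n) → Bool)) ⊆
        {A : Matrix (Fin n) (Fin n) ℤ |
          A.IsSymm ∧ (∀ i j, A i j = 1 ∨ A i j = -1) ∧ A.det = 0} := by
      rintro _ ⟨f, hf, rfl⟩
      exact ⟨toMat_isSymm f, toMat_sign f, det_eq_zero_of_mem_bad f (Finset.mem_coe.1 hf)⟩
    have hle : (bad n).card ≤ Set.ncard {A : Matrix (Fin n) (Fin n) ℤ |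
        A.IsSymm ∧ (∀ i j, A i j = 1 ∨ A i j = -1) ∧ A.det = 0} := by
      have h := Set.ncard_le_ncard hsub hfin
      rwa [Set.ncard_image_of_injective _ toMat_injective, Set.ncard_coe_finset] at h
    have hleR : ((bad n).card : ℝ) ≤ (Set.ncard {A : Matrix (Fin n) (Fin n) ℤ |
        A.IsSymm ∧ (∀ i j, A i j = 1 ∨ A i j = -1) ∧ A.det = 0} : ℝ) := by
      exact_mod_cast hle
    refine le_trans ?_ hleR
    rcases Nat.eq_zero_or_pos n with rfl | hn
    · simp
    · obtain ⟨m, rfl⟩ : ∃ m, n = m + 1 := ⟨n - 1, by omega⟩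
      have e1 : (m + 1).choose 2 = m + m.choose 2 := by
        rw [Nat.choose_succ_succ' m 1]; simp
      have e2 : (m + 1) * (m + 1 + 1) / 2 = m + m + 1 + m.choose 2 := by
        rw [hT, Nat.choose_succ_succ' (m + 1) 1, e1]; simp; ring
      have hb := card_bad_ge (m + 1)
      simp only [Nat.add_sub_cancel] at hb
      rw [e1, pow_add] at hb
      have hC : 2 * ((m + 1) * m).choose 2 ≤ (m + 1) ^ 4 := by
        rw [Nat.choose_two_right]
        calc 2 * ((m + 1) * m * ((m + 1) * m - 1) / 2)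
            ≤ (m + 1) * m * ((m + 1) * m - 1) := Nat.mul_div_le _ _
          _ ≤ (m + 1) * m * ((m + 1) * m) := Nat.mul_le_mul_left _ (Nat.sub_le _ _)
          _ ≤ (m + 1) * (m + 1) * ((m + 1) * (m + 1)) := by
              have : (m + 1) * m ≤ (m + 1) * (m + 1) := Nat.mul_le_mul_left _ (Nat.le_succ m)
              exact Nat.mul_le_mul this this
          _ = (m + 1) ^ 4 := by ring
      have hbR : ((m : ℝ) + 1) * m * ((2 : ℝ) ^ m * 2 ^ m.choose 2) ≤
          ((bad (m + 1)).card : ℝ) + (((m + 1) * m).choose 2 : ℕ) * 2 ^ m.choose 2 := by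
        exact_mod_cast hb
      have hCR : ((((m + 1) * m).choose 2 : ℕ) : ℝ) ≤ ((m : ℝ) + 1) ^ 4 / 2 := by
        have : (2 : ℝ) * (((m + 1) * m).choose 2 : ℕ) ≤ ((m : ℝ) + 1) ^ 4 := by exact_mod_cast hC
        linarith
      have hP : (0 : ℝ) < 2 ^ m.choose 2 := by positivity
      have hX : (0 : ℝ) < 2 ^ m := by positivity
      have hCP := mul_le_mul_of_nonneg_right hCR hP.le
      rw [e2, pow_add (2 : ℝ) (m + m + 1) (m.choose 2)]
      have h1 : (2 : ℝ) ^ (m + 1) = 2 * 2 ^ m := by rw [pow_succ]; ring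
      have h2 : (2 : ℝ) ^ (m + m + 1) = 2 * (2 ^ m) ^ 2 := by rw [pow_succ, pow_add]; ring
      have h3 : (4 : ℝ) ^ (m + 1) = 4 * (2 ^ m) ^ 2 := by
        rw [show (4 : ℝ) = 2 ^ 2 by norm_num, ← pow_mul, show 2 * (m + 1) = m + m + 2 by ring,
          pow_add, pow_add]
        ring
      rw [h1, h2, h3]
      push_cast
      have key : (((m : ℝ) + 1) * ((m : ℝ) + 1 - 1) / (2 * 2 ^ m) - ((m : ℝ) + 1) ^ 4 / (4 * (2 ^ m) ^ 2))
          * (2 * (2 ^ m) ^ 2 * 2 ^ m.choose 2)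
          = ((m : ℝ) + 1) * m * ((2 : ℝ) ^ m * 2 ^ m.choose 2)
            - ((m : ℝ) + 1) ^ 4 / 2 * 2 ^ m.choose 2 := by
        field_simp
        ring
      rw [key]
      linarith

end Vale.Agent.Results.P160.PairBonferroni
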